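import Vale.Agent.P125.Defs
import Vale.Agent.P125.Renorm
import Vale.Agent.P125.SumSystem
import Vale.Agent.P125.Walk
import Vale.Agent.P125.NoSumming

/-!
P125: a Banach space with Markov type `p > 1` has an equivalent uniformly smooth norm.
-/

namespace Vale.Agent.Results.P125.MarkovTypeSmooth

open Vale.Agent.P125

universe u

theorem result : ∀ (X : Type u) [NormedAddCommGroup X] [NormedSpace ℝ X] (p : ℝ),
    1 < p → MarkovType X p → HasUniformlySmoothNorm X :=
  fun X _ _ p hp hX =>
    main_of_pieces renormStmt summingStmt piLpMarkovStmt (noSummingStmt_of walkStmt) X p hp hX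

end Vale.Agent.Results.P125.MarkovTypeSmooth
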